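import Vale.Agent.P133K.Main

namespace Vale.Agent.Results.P133.CentralSequences

open Vale.Agent.P101K Vale.Agent.P133K

universe u

theorem result (A : Type u) [CStarAlgebra A] [Nontrivial A] [TopologicalSpace.SeparableSpace A]
    (ω : Ultrafilter ℕ) (hω : (ω : Filter ℕ) ≤ Filter.cofinite)
    (F : Type u) [CStarAlgebra F] (π : (ℕ → A) → F) (hF : IsFomega A ω F π)
    (hchar : IsEmpty (F →⋆ₐ[ℂ] ℂ)) :
    (WeaklyPurelyInfinite A ↔ PurelyInfinite A) ∧
      (PurelyInfinite A ↔ StronglyPurelyInfinite A) :=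
  main A ω hω F π hF hchar

end Vale.Agent.Results.P133.CentralSequences
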